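import Vale.Agent.P229.H832.Real

/-!
# P229: arbitrarily small compactly supported perturbations of the flat metric
-/

open scoped ContDiff RealInnerProductSpace Topology
open Set Metric Filter

namespace Vale.Agent.P229.H832

/-- the conformally flat metric with factor `1 + ψ` -/
noncomputable def cf (ψ : E2 → ℝ) (x : E2) : Matrix (Fin 2) (Fin 2) ℝ :=
  Matrix.diagonal fun _ => 1 + ψ x

section Bound

variable {V : Type*} [NormedAddCommGroup V] [NormedSpace ℝ V]

/-- derivatives are bounded on compact sets -/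
theorem exists_bound {f : V → ℝ} (hf : ContDiff ℝ ∞ f) {K : Set V} (hK : IsCompact K) (m : ℕ) :
    ∃ A : ℝ, 0 ≤ A ∧ ∀ i ≤ m, ∀ x ∈ K, ‖iteratedFDeriv ℝ i f x‖ ≤ A := by
  have h1 : ∀ i : ℕ, ∃ A : ℝ, ∀ x ∈ K, ‖iteratedFDeriv ℝ i f x‖ ≤ A := fun i => by
    have h2 : Continuous (iteratedFDeriv ℝ i f) :=
      hf.continuous_iteratedFDeriv (by exact_mod_cast le_top)
    obtain ⟨A, hA⟩ := hK.exists_bound_of_continuousOn h2.continuousOn
    exact ⟨A, hA⟩
  choose A hA using h1
  refine ⟨∑ i ∈ Finset.range (m + 1), |A i|, Finset.sum_nonneg fun i _ => abs_nonneg _, ?_⟩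
  intro i hi x hx
  have h3 : |A i| ≤ ∑ i ∈ Finset.range (m + 1), |A i| :=
    Finset.single_le_sum (f := fun i => |A i|) (fun i _ => abs_nonneg _)
      (Finset.mem_range.2 (by omega))
  exact ((hA i x hx).trans (le_abs_self _)).trans h3

theorem iteratedFDeriv_comp_smul {f : V → ℝ} {l : ℝ} (hf : ContDiff ℝ ∞ f) (j : ℕ) (x : V) :
    ‖iteratedFDeriv ℝ j (fun y => f (l • y)) x‖ ≤ |l| ^ j * ‖iteratedFDeriv ℝ j f (l • x)‖ := by
  have h1 := (l • ContinuousLinearMap.id ℝ V).iteratedFDeriv_comp_right (f := f)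
    (n := ∞) hf x (i := j) (by exact_mod_cast le_top)
  have h2 : (f ∘ (l • ContinuousLinearMap.id ℝ V)) = fun y => f (l • y) := rfl
  rw [h2] at h1
  rw [h1]
  change ‖(iteratedFDeriv ℝ j f (l • x)).compContinuousLinearMap
    (fun _ : Fin j => l • ContinuousLinearMap.id ℝ V)‖ ≤ _
  refine (ContinuousMultilinearMap.norm_compContinuousLinearMap_le _ _).trans ?_
  rw [mul_comm]
  refine mul_le_mul_of_nonneg_right ?_ (norm_nonneg _)
  rw [Finset.prod_const, Finset.card_univ, Fintype.card_fin]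
  refine pow_le_pow_left₀ (norm_nonneg _) ?_ _
  rw [norm_smul, Real.norm_eq_abs]
  calc |l| * ‖ContinuousLinearMap.id ℝ V‖ ≤ |l| * 1 :=
        mul_le_mul_of_nonneg_left ContinuousLinearMap.norm_id_le (abs_nonneg _)
    _ = |l| := mul_one _

/-- the derivatives of `h (l x)` on the unit ball are small if `h 0 = 0` -/
theorem exists_small {h : V → ℝ} [FiniteDimensional ℝ V] (hh : ContDiff ℝ ∞ h) (h0 : h 0 = 0)
    (m : ℕ) : ∃ C : ℝ, 0 ≤ C ∧ ∀ l : ℝ, 0 ≤ l → l ≤ 1 → ∀ j ≤ m, ∀ x ∈ closedBall (0 : V) 1,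
      ‖iteratedFDeriv ℝ j (fun y => h (l • y)) x‖ ≤ C * l := by
  obtain ⟨C, hC, hC'⟩ := exists_bound hh (isCompact_closedBall (0 : V) 1) (m + 1)
  refine ⟨C, hC, fun l hl hl1 j hj x hx => ?_⟩
  have hlx : l • x ∈ closedBall (0 : V) 1 := by
    rw [mem_closedBall_zero_iff] at hx ⊢
    rw [norm_smul, Real.norm_of_nonneg hl]
    nlinarith [norm_nonneg x]
  rcases Nat.eq_zero_or_pos j with hj0 | hj0
  · subst hj0
    rw [norm_iteratedFDeriv_zero]
    have h1 : ‖h (l • x) - h 0‖ ≤ C * ‖l • x - 0‖ := by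
      refine (convex_closedBall (0 : V) 1).norm_image_sub_le_of_norm_fderiv_le
        (fun y _ => (hh.differentiable (by simp)).differentiableAt) (fun y hy => ?_)
        (mem_closedBall_self zero_le_one) hlx
      have h2 := hC' 1 (by omega) y hy
      rwa [norm_iteratedFDeriv_one] at h2
    rw [h0, sub_zero, sub_zero, norm_smul, Real.norm_of_nonneg hl] at h1
    rw [mem_closedBall_zero_iff] at hx
    calc ‖h (l • x)‖ ≤ C * (l * ‖x‖) := h1
      _ ≤ C * l := by
        refine mul_le_mul_of_nonneg_left ?_ hC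
        nlinarith
  · refine (iteratedFDeriv_comp_smul hh j x).trans ?_
    rw [abs_of_nonneg hl]
    have h1 : l ^ j ≤ l := pow_le_of_le_one hl hl1 (by omega)
    have h2 := hC' j (by omega) _ hlx
    calc l ^ j * ‖iteratedFDeriv ℝ j h (l • x)‖ ≤ l * C :=
          mul_le_mul h1 h2 (norm_nonneg _) hl
      _ = C * l := mul_comm _ _

end Bound

/-- **small germs** -/
theorem exists_germ {φ : E2 → ℝ} (hφ : ContDiff ℝ ∞ φ)
    (hbad : ∀ n : WithTop ℕ∞, 4 ≤ n →
      ¬ LocallyRealizableAt n (fun x => Matrix.diagonal fun _ => Real.exp (2 * φ x)) 0)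
    (m : ℕ) {ε r : ℝ} (hε : 0 < ε) (hr : 0 < r) :
    ∃ ψ : E2 → ℝ, ContDiff ℝ ∞ ψ ∧ tsupport ψ ⊆ ball 0 r ∧
      (∀ j ≤ m, ∀ x, ‖iteratedFDeriv ℝ j ψ x‖ ≤ ε) ∧
      ∀ n : WithTop ℕ∞, 4 ≤ n → ¬ LocallyRealizableAt n (cf ψ) 0 := by
  -- the function vanishing at the origin
  set h : E2 → ℝ := fun x => Real.exp (2 * (φ x - φ 0)) - 1 with hh
  have hsm : ContDiff ℝ ∞ h :=
    (Real.contDiff_exp.comp (contDiff_const.mul (hφ.sub contDiff_const))).sub contDiff_const
  have h0 : h 0 = 0 := by simp [hh]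
  set r' : ℝ := min r 1 with hr'
  have hr'0 : 0 < r' := lt_min hr one_pos
  let χ : ContDiffBump (0 : E2) := ⟨r' / 4, r' / 2, by positivity, by linarith⟩
  have hχs : ContDiff ℝ ∞ (χ : E2 → ℝ) := χ.contDiff
  have hts : tsupport (χ : E2 → ℝ) ⊆ closedBall 0 (r' / 2) := by
    rw [χ.tsupport_eq]
  obtain ⟨C, hC, hC'⟩ := exists_small hsm h0 m
  obtain ⟨A, hA, hA'⟩ := exists_bound hχs (isCompact_closedBall (0 : E2) 1) m
  -- the scale
  set l : ℝ := min 1 (ε / (2 ^ m * A * C + 1)) with hl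
  have hl0 : 0 < l := lt_min one_pos (by positivity)
  have hl1 : l ≤ 1 := min_le_left _ _
  have hl2 : 2 ^ m * A * C * l ≤ ε := by
    have h1 : l ≤ ε / (2 ^ m * A * C + 1) := min_le_right _ _
    have h2 : 0 < 2 ^ m * A * C + 1 := by positivity
    rw [le_div_iff₀ h2] at h1
    nlinarith
  have hgs : ContDiff ℝ ∞ fun x : E2 => h (l • x) := hsm.comp (contDiff_const_smul l)
  have hsupp : tsupport (fun x : E2 => χ x * h (l • x)) ⊆ tsupport (χ : E2 → ℝ) :=
    tsupport_mul_subset_left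
  refine ⟨fun x => χ x * h (l • x), hχs.mul hgs, ?_, ?_, ?_⟩
  · refine (hsupp.trans hts).trans (closedBall_subset_ball ?_)
    have := min_le_left r 1
    linarith
  · intro j hj x
    by_cases hx : x ∈ tsupport (fun x : E2 => χ x * h (l • x))
    · have hx1 : x ∈ closedBall (0 : E2) 1 := by
        refine closedBall_subset_closedBall ?_ (hts (hsupp hx))
        have := min_le_right r 1
        linarith
      refine (norm_iteratedFDeriv_mul_le (N := ∞) hχs hgs x (n := j)
        (by exact_mod_cast le_top)).trans ?_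
      have h1 : ∀ i ∈ Finset.range (j + 1), (j.choose i : ℝ) * ‖iteratedFDeriv ℝ i χ x‖ *
          ‖iteratedFDeriv ℝ (j - i) (fun x : E2 => h (l • x)) x‖ ≤ (j.choose i : ℝ) *
            (A * (C * l)) := by
        intro i hi
        have hi' := Finset.mem_range.1 hi
        rw [mul_assoc]
        refine mul_le_mul_of_nonneg_left ?_ (Nat.cast_nonneg _)
        exact mul_le_mul (hA' i (by omega) x hx1) (hC' l hl0.le hl1 (j - i) (by omega) x hx1)
          (norm_nonneg _) hA
      refine (Finset.sum_le_sum h1).trans ?_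
      rw [← Finset.sum_mul]
      have h2 : (∑ i ∈ Finset.range (j + 1), (j.choose i : ℝ)) = 2 ^ j := by
        exact_mod_cast Nat.sum_range_choose j
      rw [h2]
      have h3 : (2 : ℝ) ^ j ≤ 2 ^ m := pow_le_pow_right₀ one_le_two hj
      calc (2 : ℝ) ^ j * (A * (C * l)) ≤ 2 ^ m * (A * (C * l)) :=
            mul_le_mul_of_nonneg_right h3 (by positivity)
        _ = 2 ^ m * A * C * l := by ring
        _ ≤ ε := hl2
    · have h1 : iteratedFDeriv ℝ j (fun x : E2 => χ x * h (l • x)) x = 0 := by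
        by_contra h2
        exact hx (support_iteratedFDeriv_subset j h2)
      rw [h1, norm_zero]
      exact hε.le
  · intro n hn hreal
    have hn0 : n ≠ 0 := by
      rintro rfl
      exact absurd hn (by simp)
    refine hbad n hn (scale (c := Real.exp (-(2 * φ 0))) (l := l) hn0 (Real.exp_pos _) hl0
      (congr hreal ?_))
    have h1 : ∀ᶠ x in 𝓝 (0 : E2), χ x = 1 := by
      filter_upwards [χ.eventuallyEq_one] with x hx
      exact hx
    filter_upwards [h1] with x hx
    ext i j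
    rw [cf, Matrix.smul_apply]
    by_cases hij : i = j
    · subst hij
      rw [Matrix.diagonal_apply_eq, Matrix.diagonal_apply_eq, hx, one_mul, smul_eq_mul,
        ← Real.exp_add]
      simp only [hh]
      rw [add_sub_cancel]
      congr 1
      ring
    · rw [Matrix.diagonal_apply_ne _ hij, Matrix.diagonal_apply_ne _ hij, smul_zero]

end Vale.Agent.P229.H832
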