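import Vale.Agent.P229.H832.Sum
import Vale.Agent.P229.H969.Pts
import Vale.Agent.P229.Bdl.B2

/-!
# P229: metrics which are not locally realizable at the points of a closed set
-/

open scoped ContDiff RealInnerProductSpace Topology
open Set Metric Filter

namespace Vale.Agent.P229.H832

open Vale.Agent.P229.D (Pl ConfIso toE2 ofE2 ofE2_toE2 toE2_apply contDiff_ofE2 main_pl)

/-- a conformally flat metric which is bad at the origin -/
theorem exists_bad : ∃ φ : E2 → ℝ, ContDiff ℝ ∞ φ ∧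
    BadAt (fun x => Matrix.diagonal fun _ => Real.exp (2 * φ x)) 0 := by
  obtain ⟨φ, hφ, hno⟩ := main_pl
  refine ⟨fun x => φ (ofE2 x), hφ.comp contDiff_ofE2, ?_⟩
  rintro n hn ⟨U, hU, h0, F, hF, hiso⟩
  have hpre : IsOpen (toE2 ⁻¹' U) := hU.preimage toE2.continuous
  refine hno (toE2 ⁻¹' U) hpre (by simpa only [mem_preimage, map_zero] using h0)
    (fun p => F (toE2 p)) ?_ ?_
  · exact (hF.of_le hn).comp toE2.contDiff.contDiffOn fun p hp => hp
  · intro p hp
    have hd : DifferentiableAt ℝ F (toE2 p) :=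
      (hF.contDiffAt (hU.mem_nhds hp)).differentiableAt
        (by
          rintro rfl
          exact absurd hn (by simp))
    have hfd : fderiv ℝ (fun p => F (toE2 p)) p = (fderiv ℝ F (toE2 p)).comp toE2 := by
      have := fderiv_comp (𝕜 := ℝ) p hd toE2.differentiableAt
      rw [toE2.fderiv] at this
      exact this
    have e0 : toE2 (1, 0) = EuclideanSpace.single (0 : Fin 2) (1 : ℝ) := by
      simp [toE2_apply]
    have e1 : toE2 (0, 1) = EuclideanSpace.single (1 : Fin 2) (1 : ℝ) := by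
      simp only [toE2_apply, Fin.isValue, zero_smul, one_smul, zero_add]
    rw [hfd]
    simp only [ContinuousLinearMap.comp_apply, e0, e1]
    have h00 := hiso _ hp 0 0
    have h11 := hiso _ hp 1 1
    have h01 := hiso _ hp 0 1
    simp only [Matrix.diagonal_apply_eq, ofE2_toE2] at h00 h11
    have h01' : (Matrix.diagonal fun _ : Fin 2 => Real.exp (2 * φ (ofE2 (toE2 p)))) 0 1 = 0 :=
      Matrix.diagonal_apply_ne _ (by decide)
    exact ⟨h00, h11, h01.trans h01'⟩

/-- **metrics arbitrarily close to the flat one which are bad on a closed set without interior** -/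
theorem main {F V : Set E2} (hF : IsClosed F) (hi : interior F = ∅) (hV : IsOpen V) (hFV : F ⊆ V)
    (m : ℕ) {ε : E2 → ℝ} (hε : Continuous ε) (hε0 : ∀ x, 0 < ε x) :
    ∃ g : E2 → Matrix (Fin 2) (Fin 2) ℝ, IsMetricOn ∞ g univ ∧ (∀ x ∉ V, g x = 1) ∧
      (∀ j ≤ m, ∀ (i k : Fin 2) (x : E2),
        ‖iteratedFDeriv ℝ j (fun y => g y i k - (1 : Matrix (Fin 2) (Fin 2) ℝ) i k) x‖ ≤ ε x) ∧
      ∀ p ∈ F, BadAt g p := by
  have hone : ∀ (ψ : E2 → ℝ) (x : E2), ψ x = 0 → cf ψ x = 1 := fun ψ x hx => by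
    rw [cf, hx, add_zero, Matrix.diagonal_one]
  rcases F.eq_empty_or_nonempty with hne | hne
  · refine ⟨cf fun _ => 0, isMetricOn_cf contDiff_const fun _ => by norm_num,
      fun x _ => hone _ x rfl, fun j _ i k x => ?_, fun p hp => ?_⟩
    · refine (dist_flat _ j i k x).trans ?_
      rw [iteratedFDeriv_fun_zero]
      simpa using (hε0 x).le
    · rw [hne] at hp
      exact absurd hp (notMem_empty p)
  · obtain ⟨p, r, hr, -, hpV, hd, hdense⟩ := H969.exists_discs hF hi hne hV hFV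
    obtain ⟨φ, hφ, hbad⟩ := exists_bad
    obtain ⟨ψ, h1, h2, h3, h4, h5⟩ := exists_sum hφ hbad hr hd m hε hε0
    refine ⟨cf ψ, isMetricOn_cf h1 h2, fun x hx => hone ψ x (h3 x fun n hn => hx (hpV n hn)),
      fun j hj i k x => (dist_flat ψ j i k x).trans (h4 j hj x), fun z hz => ?_⟩
    refine bad_closure fun U hU hzU => ?_
    obtain ⟨n, hn⟩ := hdense z hz U hU hzU
    exact ⟨p n, hn, h5 n⟩

/-- **almost every point can be bad** -/
theorem main_measure (m : ℕ) {ε : E2 → ℝ} (hε : Continuous ε) (hε0 : ∀ x, 0 < ε x) {η : ℝ}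
    (hη : 0 < η) :
    ∃ g : E2 → Matrix (Fin 2) (Fin 2) ℝ, IsMetricOn ∞ g univ ∧
      (∀ j ≤ m, ∀ (i k : Fin 2) (x : E2),
        ‖iteratedFDeriv ℝ j (fun y => g y i k - (1 : Matrix (Fin 2) (Fin 2) ℝ) i k) x‖ ≤ ε x) ∧
      MeasureTheory.volume {p : E2 | ∃ n : WithTop ℕ∞, 4 ≤ n ∧ LocallyRealizableAt n g p} <
        ENNReal.ofReal η := by
  obtain ⟨F, hF, hi, -, hvol⟩ := H969.exists_fat η hη
  obtain ⟨g, h1, -, h3, h4⟩ := main hF hi isOpen_univ (subset_univ F) m hε hε0
  refine ⟨g, h1, h3, lt_of_le_of_lt (MeasureTheory.measure_mono ?_) hvol⟩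
  rintro p ⟨n, hn, hp⟩ hpF
  exact h4 p hpF n hn hp

end Vale.Agent.P229.H832
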