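import Mathlib
import Vale.Agent.P229.Defs

/-!
# P229: transport of local realizability
-/

open scoped ContDiff RealInnerProductSpace Topology
open Set Metric Filter

namespace Vale.Agent.P229.H832

variable {n : WithTop ℕ∞} {g g' : E2 → Matrix (Fin 2) (Fin 2) ℝ} {p a : E2}

/-- realizability only depends on the germ of the metric -/
theorem congr (h : LocallyRealizableAt n g p) (he : ∀ᶠ x in 𝓝 p, g x = g' x) :
    LocallyRealizableAt n g' p := by
  obtain ⟨U, hU, hp, F, hF, hi⟩ := h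
  obtain ⟨W, hW, hWo, hpW⟩ := _root_.eventually_nhds_iff.1 he
  refine ⟨U ∩ W, hU.inter hWo, ⟨hp, hpW⟩, F, hF.mono inter_subset_left, fun x hx i j => ?_⟩
  rw [← hW x hx.2]
  exact hi x hx.1 i j

/-- realizability at a point of an open set implies realizability at its points nearby -/
theorem near (h : LocallyRealizableAt n g p) : ∃ U : Set E2, IsOpen U ∧ p ∈ U ∧
    ∀ q ∈ U, LocallyRealizableAt n g q := by
  obtain ⟨U, hU, hp, F, hF⟩ := h
  exact ⟨U, hU, hp, fun q hq => ⟨U, hU, hq, F, hF⟩⟩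

/-- translations -/
theorem shift (h : LocallyRealizableAt n (fun x => g (x - a)) a) :
    LocallyRealizableAt n g 0 := by
  obtain ⟨U, hU, hp, F, hF, hi⟩ := h
  have hc : Continuous fun y : E2 => y + a := continuous_id.add continuous_const
  have hcd : ContDiff ℝ n fun y : E2 => y + a := contDiff_id.add contDiff_const
  refine ⟨(fun y => y + a) ⁻¹' U, hU.preimage hc, ?_, fun y => F (y + a), ?_, ?_⟩
  · change 0 + a ∈ U
    rwa [zero_add]
  · exact hF.comp hcd.contDiffOn fun y hy => hy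
  · intro x hx i j
    have hx' : x + a ∈ U := hx
    have h1 := hi (x + a) hx' i j
    simp only [add_sub_cancel_right] at h1
    have h2 : fderiv ℝ (fun y => F (y + a)) x = fderiv ℝ F (x + a) := fderiv_comp_add_right a
    rw [h2]
    exact h1

/-- homotheties -/
theorem scale (hn : n ≠ 0) {c l : ℝ} (hc : 0 < c) (hl : 0 < l)
    (h : LocallyRealizableAt n (fun x => c • g (l • x)) 0) : LocallyRealizableAt n g 0 := by
  obtain ⟨U, hU, hp, F, hF, hi⟩ := h
  have hcn : Continuous fun y : E2 => l⁻¹ • y := continuous_const_smul _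
  have hcd : ContDiff ℝ n fun y : E2 => l⁻¹ • y := contDiff_const_smul _
  refine ⟨(fun y => l⁻¹ • y) ⁻¹' U, hU.preimage hcn, ?_,
    fun y => (l / Real.sqrt c) • F (l⁻¹ • y), ?_, ?_⟩
  · change l⁻¹ • (0 : E2) ∈ U
    rwa [smul_zero]
  · exact (hF.comp hcd.contDiffOn fun y hy => hy).const_smul _
  · intro x hx i j
    have hx' : l⁻¹ • x ∈ U := hx
    have h1 := hi (l⁻¹ • x) hx' i j
    simp only [smul_smul, mul_inv_cancel₀ hl.ne', one_smul] at h1
    have hd : DifferentiableAt ℝ F (l⁻¹ • x) :=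
      (hF.contDiffAt (hU.mem_nhds hx')).differentiableAt hn
    have h2 : HasFDerivAt (fun y : E2 => l⁻¹ • y) (l⁻¹ • ContinuousLinearMap.id ℝ E2) x :=
      (hasFDerivAt_id x).const_smul l⁻¹
    have h2' : HasFDerivAt (fun y : E2 => F (l⁻¹ • y))
        ((fderiv ℝ F (l⁻¹ • x)).comp (l⁻¹ • ContinuousLinearMap.id ℝ E2)) x :=
      hd.hasFDerivAt.comp x h2
    have h3 : HasFDerivAt (fun y => (l / Real.sqrt c) • F (l⁻¹ • y))
        ((l / Real.sqrt c) • (fderiv ℝ F (l⁻¹ • x)).comp (l⁻¹ • ContinuousLinearMap.id ℝ E2)) x :=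
      h2'.const_smul (l / Real.sqrt c)
    have h4 : ∀ v : E2, fderiv ℝ (fun y => (l / Real.sqrt c) • F (l⁻¹ • y)) x v =
        (Real.sqrt c)⁻¹ • fderiv ℝ F (l⁻¹ • x) v := by
      intro v
      rw [h3.fderiv]
      change (l / Real.sqrt c) • (fderiv ℝ F (l⁻¹ • x)) (l⁻¹ • v) = _
      rw [map_smul, smul_smul]
      congr 1
      field_simp
    rw [h4, h4, real_inner_smul_left, real_inner_smul_right, h1, Matrix.smul_apply, smul_eq_mul,
      ← mul_assoc, ← mul_assoc, ← mul_inv, Real.mul_self_sqrt hc.le, inv_mul_cancel₀ hc.ne',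
      one_mul]

end Vale.Agent.P229.H832
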