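import Vale.Agent.P229.H832.Germ

/-!
# P229: sums of small perturbations on disjoint discs
-/

open scoped ContDiff RealInnerProductSpace Topology
open Set Metric Filter

namespace Vale.Agent.P229.H832

/-- the metric is bad at `p` -/
def BadAt (g : E2 → Matrix (Fin 2) (Fin 2) ℝ) (p : E2) : Prop :=
  ∀ n : WithTop ℕ∞, 4 ≤ n → ¬ LocallyRealizableAt n g p

theorem cf_same (ψ : E2 → ℝ) (x : E2) (i : Fin 2) : cf ψ x i i = 1 + ψ x := by
  rw [cf, Matrix.diagonal_apply_eq]

theorem cf_ne (ψ : E2 → ℝ) (x : E2) {i k : Fin 2} (h : i ≠ k) : cf ψ x i k = 0 := by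
  rw [cf, Matrix.diagonal_apply_ne _ h]

/-- a smooth metric -/
theorem isMetricOn_cf {ψ : E2 → ℝ} (h : ContDiff ℝ ∞ ψ) (hp : ∀ x, -1 < ψ x) :
    IsMetricOn ∞ (cf ψ) univ where
  contDiffOn i j := by
    by_cases hij : i = j
    · subst hij
      simp only [cf_same]
      exact (contDiff_const.add h).contDiffOn
    · simp only [cf_ne _ _ hij]
      exact contDiffOn_const
  posDef x _ := Matrix.PosDef.diagonal fun _ => by linarith [hp x]

/-- the derivatives of the difference to the flat metric -/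
theorem dist_flat (ψ : E2 → ℝ) (j : ℕ) (i k : Fin 2) (x : E2) :
    ‖iteratedFDeriv ℝ j (fun y => cf ψ y i k - (1 : Matrix (Fin 2) (Fin 2) ℝ) i k) x‖ ≤
      ‖iteratedFDeriv ℝ j ψ x‖ := by
  by_cases hik : i = k
  · subst hik
    have h1 : (fun y => cf ψ y i i - (1 : Matrix (Fin 2) (Fin 2) ℝ) i i) = ψ := funext fun y => by
      rw [cf_same, Matrix.one_apply_eq, add_sub_cancel_left]
    rw [h1]
  · have h1 : (fun y => cf ψ y i k - (1 : Matrix (Fin 2) (Fin 2) ℝ) i k) = fun _ => 0 :=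
      funext fun y => by
        rw [cf_ne _ _ hik, Matrix.one_apply_ne hik, sub_zero]
    rw [h1, iteratedFDeriv_fun_zero]
    simp

variable {φ : E2 → ℝ} (hφ : ContDiff ℝ ∞ φ)
    (hbad : BadAt (fun x => Matrix.diagonal fun _ => Real.exp (2 * φ x)) 0)

include hφ hbad in
/-- **small perturbations on disjoint discs** -/
theorem exists_sum {p : ℕ → E2} {r : ℕ → ℝ} (hr : ∀ n, 0 < r n)
    (hd : Pairwise fun i j => Disjoint (closedBall (p i) (r i)) (closedBall (p j) (r j)))
    (m : ℕ) {ε : E2 → ℝ} (hε : Continuous ε) (hε0 : ∀ x, 0 < ε x) :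
    ∃ ψ : E2 → ℝ, ContDiff ℝ ∞ ψ ∧ (∀ x, -1 < ψ x) ∧
      (∀ x, (∀ n, x ∉ closedBall (p n) (r n)) → ψ x = 0) ∧
      (∀ j ≤ m, ∀ x, ‖iteratedFDeriv ℝ j ψ x‖ ≤ ε x) ∧ ∀ n, BadAt (cf ψ) (p n) := by
  -- the size of the perturbations
  have h1 : ∀ n, ∃ η : ℝ, 0 < η ∧ ∀ x ∈ closedBall (p n) (r n), η ≤ ε x := fun n => by
    obtain ⟨x, _, hx2⟩ := (isCompact_closedBall (p n) (r n)).exists_isMinOn
      ⟨p n, mem_closedBall_self (hr n).le⟩ hε.continuousOn
    exact ⟨ε x, hε0 x, fun y hy => hx2 hy⟩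
  choose η hη hη' using h1
  have h2 : ∀ n, 0 < min (η n) ((1 / 2 : ℝ) ^ (n + 1)) := fun n => lt_min (hη n) (by positivity)
  choose f hf1 hf2 hf3 hf4 using fun n => exists_germ hφ hbad (max m n) (h2 n) (hr n)
  -- the translated functions
  let F : ℕ → E2 → ℝ := fun n x => f n (x - p n)
  have hF1 : ∀ n, ContDiff ℝ ∞ (F n) := fun n => (hf1 n).comp (contDiff_id.sub contDiff_const)
  have hFd : ∀ n j x, iteratedFDeriv ℝ j (F n) x = iteratedFDeriv ℝ j (f n) (x - p n) :=
    fun n j x => congrFun (iteratedFDeriv_comp_sub' (𝕜 := ℝ) (f := f n) j (p n)) x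
  have hF0 : ∀ n j x, x ∉ closedBall (p n) (r n) → iteratedFDeriv ℝ j (F n) x = 0 := by
    intro n j x hx
    rw [hFd]
    by_contra h3
    refine hx ?_
    have h4 := hf2 n (support_iteratedFDeriv_subset j h3)
    rw [mem_ball_zero_iff] at h4
    rw [mem_closedBall, dist_eq_norm]
    exact h4.le
  have hF00 : ∀ n x, x ∉ closedBall (p n) (r n) → F n x = 0 := fun n x hx => by
    have h3 := hF0 n 0 x hx
    rw [← norm_eq_zero, norm_iteratedFDeriv_zero, norm_eq_zero] at h3
    exact h3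
  have hFb : ∀ n, ∀ j ≤ max m n, ∀ x, ‖iteratedFDeriv ℝ j (F n) x‖ ≤ (1 / 2 : ℝ) ^ (n + 1) :=
    fun n j hj x => by
      rw [hFd]
      exact (hf3 n j hj _).trans (min_le_right _ _)
  have hsum : Summable fun n : ℕ => (1 / 2 : ℝ) ^ (n + 1) :=
    (summable_nat_add_iff 1).2 (summable_geometric_two)
  have hother : ∀ n x, x ∈ closedBall (p n) (r n) → ∀ k, k ≠ n → x ∉ closedBall (p k) (r k) :=
    fun n x hx k hk hx' => (hd hk).le_bot ⟨hx', hx⟩
  have hψ : ContDiff ℝ ∞ fun x => ∑' n, F n x := by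
    refine contDiff_tsum_of_eventually (v := fun _ n => (1 / 2 : ℝ) ^ (n + 1)) (fun n => hF1 n)
      (fun k _ => hsum) fun k _ => ?_
    rw [Nat.cofinite_eq_atTop]
    filter_upwards [eventually_ge_atTop k] with n hn x
    exact hFb n k (hn.trans (le_max_right _ _)) x
  have hval : ∀ n x, x ∈ closedBall (p n) (r n) → ∑' k, F k x = F n x := fun n x hx =>
    tsum_eq_single n fun k hk => hF00 k x (hother n x hx k hk)
  have hval0 : ∀ x, (∀ n, x ∉ closedBall (p n) (r n)) → ∑' k, F k x = 0 := fun x hx => by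
    have h3 : (fun k => F k x) = fun _ => 0 := funext fun k => hF00 k x (hx k)
    rw [h3, tsum_zero]
  refine ⟨fun x => ∑' n, F n x, hψ, ?_, hval0, ?_, ?_⟩
  · intro x
    change -1 < ∑' n, F n x
    by_cases hx : ∃ n, x ∈ closedBall (p n) (r n)
    · obtain ⟨n, hn⟩ := hx
      rw [hval n x hn]
      have h3 := hFb n 0 (Nat.zero_le _) x
      rw [norm_iteratedFDeriv_zero, Real.norm_eq_abs] at h3
      have h4 : (1 / 2 : ℝ) ^ (n + 1) < 1 := pow_lt_one₀ (by norm_num) (by norm_num) (by omega)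
      linarith [neg_abs_le (F n x)]
    · push Not at hx
      rw [hval0 x hx]
      norm_num
  · intro j hj x
    have h3 : iteratedFDeriv ℝ j (fun x => ∑' n, F n x) x = ∑' n, iteratedFDeriv ℝ j (F n) x :=
      iteratedFDeriv_tsum_apply (N := (m : ℕ∞)) (v := fun _ n => (1 / 2 : ℝ) ^ (n + 1))
        (fun n => (hF1 n).of_le (by exact_mod_cast le_top)) (fun k _ => hsum)
        (fun k n x hk => hFb n k ((by exact_mod_cast hk : k ≤ m).trans (le_max_left _ _)) x)
        (by exact_mod_cast hj) x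
    rw [h3]
    by_cases hx : ∃ n, x ∈ closedBall (p n) (r n)
    · obtain ⟨n, hn⟩ := hx
      rw [tsum_eq_single n fun k hk => hF0 k j x (hother n x hn k hk), hFd]
      exact ((hf3 n j (hj.trans (le_max_left _ _)) _).trans (min_le_left _ _)).trans
        (hη' n x hn)
    · push Not at hx
      have h4 : (fun k => iteratedFDeriv ℝ j (F k) x) = fun _ => 0 := funext fun k => hF0 k j x (hx k)
      rw [h4, tsum_zero, norm_zero]
      exact (hε0 x).le
  · intro n k hk hreal
    refine hf4 n k hk (shift (a := p n) (congr hreal ?_))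
    have h3 : ∀ᶠ x in 𝓝 (p n), x ∈ ball (p n) (r n) := ball_mem_nhds _ (hr n)
    filter_upwards [h3] with x hx
    change cf (fun x => ∑' n, F n x) x = cf (f n) (x - p n)
    rw [cf, cf, hval n x (ball_subset_closedBall hx)]

/-- the set of bad points is closed -/
theorem bad_closure {g : E2 → Matrix (Fin 2) (Fin 2) ℝ} {z : E2}
    (h : ∀ U, IsOpen U → z ∈ U → ∃ q ∈ U, BadAt g q) : BadAt g z := by
  intro n hn hreal
  obtain ⟨U, hU, hz, hU'⟩ := near hreal
  obtain ⟨q, hq, hq'⟩ := h U hU hz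
  exact hq' n hn (hU' q hq)

end Vale.Agent.P229.H832
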